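import Crest.Agent.X212.Ksc68.Job
import Crest.Agent.X212.Cut31.Gs

/-!
# Row 212, RFQ-KSC (helper68): the leaf KSC
-/

set_option autoImplicit false
set_option linter.unusedSectionVars false
noncomputable section
open scoped Manifold ContDiff Topology
open Set Function Filter

namespace Crest.Agent.X212.Ksc68
open An M Cut31

theorem rowCv {E : Type} [NormedAddCommGroup E] [NormedSpace ℝ E] [FiniteDimensional ℝ E]
    [MeasurableSpace E] [BorelSpace E]
    {HM : Type} [TopologicalSpace HM] (I : ModelWithCorners ℝ E HM) [I.Boundaryless]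
    (M : Type) [TopologicalSpace M] [ChartedSpace HM M] [IsManifold I ∞ M] [MeasurableSpace M]
    [BorelSpace M] [T2Space M] [SecondCountableTopology M] (ι lam : Type) [Fintype ι] [Fintype lam] :
    RowCv I M ι lam := by
  intro α r l B G G₀ c b u k hg ha h hk h₀
  have K : CK (fx l B G G₀) (fun _ => k) k := CK.const (fun _ _ => rfl) h₀ (.of_forall hk)
  have hS := disjoint_empty k.supp
  have a1 := K.hi hg ha h hS
  have a2 := K.T hg ha h hS
  refine ⟨R (fx l B G G₀) (fun _ => k) k u, a1.mono fun n e => ⟨e.2.1, fun v => ?_⟩, a2,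
    fun Ξ Ξ₀ a a' w t => ?_⟩
  · have e1 := e.2.2.2 Complex.I v
    have e2 := Hol14.rH_csE (Hol14.cp_pp hg.B₀ (ha n).ok k.x0) Complex.I v
    have e3 := Hol14.rH_csE (Hol14.cp_pp hg.B₀ h.adm.ok k.x0) Complex.I
      (R (fx l B G G₀) (fun _ => k) k u n v)
    rw [Complex.I_re, Complex.I_im, one_smul, zero_smul, zero_add] at e2 e3
    exact (congrArg _ e2.symm).trans (e1.trans e3)
  · exact K.frk hg ha h hS t a a' w

variable {Wi : Type} {X : Mf 4} {A κ lam : Type} [Fintype A] [Fintype κ] [Fintype lam]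
  [DecidableEq lam] {M : Mark X A κ} {W : World M} {N : ML M lam} {Λ : Lns W N}
  {A' h : Type} [Fintype A'] [DecidableEq A'] [Fintype h] {r n : ℕ}

/-- **KSC** -/
theorem ksc (J : Job Wi Λ A' h r n) (c : M.Cl) : Qab60.KscL J c := fun hJ _ hσ =>
  ksc_of (rowCv _ _ _ _) hJ hσ

end Crest.Agent.X212.Ksc68
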