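import Crest.Agent.X212.Cut31.Fr
import Mathlib.Analysis.Complex.Circle
import Mathlib.Analysis.InnerProductSpace.LinearMap

/-!
# Row 212, RFQ-KSC (helper68): kernels of approximately intertwined operators do not jump up
-/

set_option autoImplicit false
set_option linter.unusedSectionVars false
noncomputable section
open scoped InnerProductSpace
open Filter Topology

namespace Crest.Agent.X212.Ksc68

section iw
variable {α H : Type} [NormedAddCommGroup H] [NormedSpace ℝ H] {G : α → Type}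
  [∀ i, NormedAddCommGroup (G i)] [∀ i, NormedSpace ℝ (G i)] {l : Filter α} {R : ∀ i, G i →L[ℝ] H}
  {D₀ D₁ : H →L[ℝ] H} {D D' : ∀ i, G i →L[ℝ] G i}

variable (l R D₀ D) in
/-- approximately intertwined operators -/
def Iw : Prop := Tendsto (fun i => ‖D₀ ∘L R i - R i ∘L D i‖) l (𝓝 0)

theorem Iw.zero : Iw l R 0 0 := by
  simp only [Iw, ContinuousLinearMap.zero_comp, Pi.zero_apply, ContinuousLinearMap.comp_zero,
    sub_self, norm_zero]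
  exact tendsto_const_nhds

theorem Iw.add (h : Iw l R D₀ D) (h' : Iw l R D₁ D') : Iw l R (D₀ + D₁) fun i => D i + D' i := by
  have t := Tendsto.add h h'
  rw [add_zero] at t
  refine squeeze_zero (fun _ => norm_nonneg _) (fun i => ?_) t
  rw [ContinuousLinearMap.add_comp, ContinuousLinearMap.comp_add, add_sub_add_comm]
  exact norm_add_le _ _

theorem Iw.sub (h : Iw l R D₀ D) (h' : Iw l R D₁ D') : Iw l R (D₀ - D₁) fun i => D i - D' i := by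
  have t := Tendsto.add h h'
  rw [add_zero] at t
  refine squeeze_zero (fun _ => norm_nonneg _) (fun i => ?_) t
  rw [ContinuousLinearMap.sub_comp, ContinuousLinearMap.comp_sub, sub_sub_sub_comm]
  exact norm_sub_le _ _

theorem Iw.smul (h : Iw l R D₀ D) (hR : ∀ᶠ i in l, ∀ v, ‖R i v‖ = ‖v‖) {a : α → ℝ} {a₀ : ℝ}
    (ha : Tendsto a l (𝓝 a₀)) : Iw l R (a₀ • D₀) fun i => a i • D i := by
  have t := ((ha.const_sub a₀).norm.mul_const ‖D₀‖).add (ha.norm.mul h)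
  rw [sub_self, norm_zero, zero_mul, mul_zero, add_zero] at t
  refine squeeze_zero' (.of_forall fun _ => norm_nonneg _) (hR.mono fun i hi => ?_) t
  have e : (a₀ • D₀) ∘L R i - R i ∘L (a i • D i) =
      (a₀ - a i) • (D₀ ∘L R i) + a i • (D₀ ∘L R i - R i ∘L D i) := by
    ext v; simp [sub_smul, smul_sub]
  rw [e]
  refine (norm_add_le _ _).trans (add_le_add ?_ (norm_smul _ _).le)
  rw [norm_smul]
  exact mul_le_mul_of_nonneg_left (ContinuousLinearMap.opNorm_le_bound _ (norm_nonneg _) fun v =>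
    (D₀.le_opNorm _).trans_eq (congrArg (‖D₀‖ * ·) (hi v))) (norm_nonneg _)

theorem Iw.sum {κ : Type} (T : Finset κ) {D₀ : κ → H →L[ℝ] H} {D : κ → ∀ i, G i →L[ℝ] G i}
    (h : ∀ w ∈ T, Iw l R (D₀ w) (D w)) : Iw l R (∑ w ∈ T, D₀ w) fun i => ∑ w ∈ T, D w i := by
  classical
  induction T using Finset.induction_on with
  | empty => exact .zero
  | insert a T ha ih =>
    simp only [Finset.sum_insert ha]
    exact (h a (by simp)).add (ih fun i hi => h i (by simp [hi]))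

end iw

/-- the kernel is at most a complex line -/
def Ln {H : Type} [NormedAddCommGroup H] [NormedSpace ℝ H] (D j : H →L[ℝ] H) : Prop :=
  ∀ ψ ψ', ‖ψ‖ = 1 → D ψ = 0 → ‖ψ'‖ = 1 → D ψ' = 0 →
    ∃ η : Circle, ψ' = (η : ℂ).re • ψ + (η : ℂ).im • j ψ

/-- complex structures on the kernel -/
structure Cx {H : Type} [NormedAddCommGroup H] [InnerProductSpace ℝ H] (D j : H →L[ℝ] H) : Prop where
  nm : ∀ v, ‖j v‖ = ‖v‖
  sk : ∀ v, ⟪j v, v⟫_ℝ = 0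
  ker : ∀ v, D v = 0 → D (j v) = 0

theorem Cx.gs {H : Type} [NormedAddCommGroup H] [InnerProductSpace ℝ H] {D j : H →L[ℝ] H}
    (h : Cx D j) (k : ¬Ln D j) : ∃ ψ χ, (‖ψ‖ = 1 ∧ D ψ = 0) ∧ (‖χ‖ = 1 ∧ D χ = 0) ∧
      ⟪ψ, χ⟫_ℝ = 0 ∧ ⟪j ψ, χ⟫_ℝ = 0 := by
  simp only [Ln, not_forall, not_exists] at k
  obtain ⟨ψ, ψ', a1, a2, b1, b2, k⟩ := k
  set a := ⟪ψ, ψ'⟫_ℝ
  set b := ⟪j ψ, ψ'⟫_ℝ
  have e1 : ⟪ψ, ψ⟫_ℝ = 1 := by rw [real_inner_self_eq_norm_sq, a1, one_pow]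
  have e2 : ⟪j ψ, j ψ⟫_ℝ = 1 := by rw [real_inner_self_eq_norm_sq, h.nm, a1, one_pow]
  have e3 := h.sk ψ
  have e4 : ⟪ψ, j ψ⟫_ℝ = 0 := (real_inner_comm _ _).trans e3
  have n0 : ψ' - (a • ψ + b • j ψ) ≠ 0 := fun e => by
    have e := sub_eq_zero.1 e
    have : a ^ 2 + b ^ 2 = 1 := by
      have := congrArg (fun v => ⟪v, ψ'⟫_ℝ) e
      simp only [inner_add_left, real_inner_smul_left, real_inner_self_eq_norm_sq, b1] at this
      linarith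
    exact k ⟨⟨a, b⟩, mem_sphere_zero_iff_norm.2 (by
      rw [Complex.norm_eq_sqrt_sq_add_sq, this, Real.sqrt_one])⟩ e
  refine ⟨ψ, ‖ψ' - (a • ψ + b • j ψ)‖⁻¹ • (ψ' - (a • ψ + b • j ψ)), ⟨a1, a2⟩,
    ⟨norm_smul_inv_norm n0, ?_⟩, ?_, ?_⟩
  · simp only [map_smul, map_sub, map_add, a2, b2, h.ker ψ a2, smul_zero, add_zero, sub_zero]
  · simp only [real_inner_smul_right, inner_sub_right, inner_add_right, e1, e4]
    ring
  · simp only [real_inner_smul_right, inner_sub_right, inner_add_right, e2, e3]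
    ring

variable {α H : Type} [NormedAddCommGroup H] [InnerProductSpace ℝ H] [CompleteSpace H]
  {G : α → Type} [∀ i, NormedAddCommGroup (G i)] [∀ i, InnerProductSpace ℝ (G i)]
  {𝒰 : Ultrafilter α} {R : ∀ i, G i →L[ℝ] H} {D₀ j₀ : H →L[ℝ] H} {D j : ∀ i, G i →L[ℝ] G i}
  (hD : D₀.IsFredholm) (h : Iw 𝒰 R D₀ D) (hR : ∀ᶠ i in (𝒰 : Filter α), ∀ v, ‖R i v‖ = ‖v‖)
include hD h hR

theorem ker_lim {ψ : ∀ i, G i} (hψ : ∀ᶠ i in (𝒰 : Filter α), ‖ψ i‖ = 1 ∧ D i (ψ i) = 0) :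
    ∃ ψ₀, Tendsto (fun i => R i (ψ i)) 𝒰 (𝓝 ψ₀) ∧ ‖ψ₀‖ = 1 ∧ D₀ ψ₀ = 0 :=
  Cut31.fr_lim 𝒰 hD h ((hψ.and hR).mono fun _ k => ⟨k.1.1, (k.2 _).trans k.1.1, k.1.2⟩)

theorem ev_none (h0 : ∀ ψ, ¬(‖ψ‖ = 1 ∧ D₀ ψ = 0)) :
    ∀ᶠ i in (𝒰 : Filter α), ∀ ψ, ¬(‖ψ‖ = 1 ∧ D i ψ = 0) := by
  refine by_contra fun k => ?_
  have : ∀ i, ∃ ψ : G i, (¬∀ ψ, ¬(‖ψ‖ = 1 ∧ D i ψ = 0)) → ‖ψ‖ = 1 ∧ D i ψ = 0 := fun i =>
    (em _).elim (fun e => ⟨0, fun e' => (e' e).elim⟩) fun e =>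
      let ⟨ψ, e⟩ := not_forall.1 e; ⟨ψ, fun _ => not_not.1 e⟩
  choose ψ hψ using this
  obtain ⟨ψ₀, -, e⟩ := ker_lim hD h hR ((Ultrafilter.eventually_not.2 k).mono hψ)
  exact h0 ψ₀ e

theorem ev_ln (hj : ∀ᶠ i in (𝒰 : Filter α), Cx (D i) (j i) ∧ ∀ v, R i (j i v) = j₀ (R i v))
    (h0 : Ln D₀ j₀) : ∀ᶠ i in (𝒰 : Filter α), Ln (D i) (j i) := by
  refine by_contra fun k => ?_
  have : ∀ i, ∃ ψ χ : G i, Cx (D i) (j i) → ¬Ln (D i) (j i) → (‖ψ‖ = 1 ∧ D i ψ = 0) ∧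
      (‖χ‖ = 1 ∧ D i χ = 0) ∧ ⟪ψ, χ⟫_ℝ = 0 ∧ ⟪j i ψ, χ⟫_ℝ = 0 := fun i =>
    (em (Cx (D i) (j i) ∧ ¬Ln (D i) (j i))).elim
      (fun e => let ⟨ψ, χ, e⟩ := e.1.gs e.2; ⟨ψ, χ, fun _ _ => e⟩)
      fun e => ⟨0, 0, fun a b => (e ⟨a, b⟩).elim⟩
  choose ψ χ e using this
  have e := (hj.and (Ultrafilter.eventually_not.2 k)).mono fun i k => e i k.1.1 k.2
  obtain ⟨ψ₀, t1, a1, a2⟩ := ker_lim hD h hR (e.mono fun _ k => k.1)
  obtain ⟨χ₀, t2, b1, b2⟩ := ker_lim hD h hR (e.mono fun _ k => k.2.1)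
  have ip : ∀ᶠ i in (𝒰 : Filter α), ∀ v w, ⟪R i v, R i w⟫_ℝ = ⟪v, w⟫_ℝ := hR.mono fun i k =>
    (⟨(R i).toLinearMap, k⟩ : G i →ₗᵢ[ℝ] H).inner_map_map
  have c1 : ⟪ψ₀, χ₀⟫_ℝ = 0 := tendsto_nhds_unique_of_eventuallyEq (t1.inner t2) tendsto_const_nhds
    ((ip.and e).mono fun i k => (k.1 _ _).trans k.2.2.2.1)
  have c2 : ⟪j₀ ψ₀, χ₀⟫_ℝ = 0 := tendsto_nhds_unique_of_eventuallyEq
    (((j₀.continuous.tendsto _).comp t1).inner t2) tendsto_const_nhds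
    (((ip.and e).and hj).mono fun i k => by
      simp only [Function.comp_apply, ← k.2.2, k.1.1, k.1.2.2.2.2])
  obtain ⟨η, e⟩ := h0 ψ₀ χ₀ a1 a2 b1 b2
  have := congrArg (fun v => ⟪v, χ₀⟫_ℝ) e
  simp [inner_add_left, real_inner_smul_left, c1, c2, b1] at this

end Crest.Agent.X212.Ksc68
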