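import Crest.Agent.X212.Ksc68.Xi
import Crest.Agent.X212.Ksc68.Abs
import Crest.Agent.X212.Qab60.Lq
import Crest.Agent.X212.Lns95.Van
import Crest.Agent.X212.Lit63.Main
import Crest.Agent.X212.Fin37.Top
import Crest.Agent.X212.Mcg32.LinCl

/-!
# Row 212, RFQ-KSC (helper68): bounds along strong limits, phases, the complex structure of a row
-/

set_option autoImplicit false
set_option linter.unusedSectionVars false
noncomputable section
open scoped Manifold ContDiff Topology InnerProductSpace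
open Set Function Filter

namespace Crest.Agent.X212.Ksc68
open An An.Job M Nd18 Cmp73 Eqv71 Qab60
open Hol14 (cH JH CP cp_pp)
open Abel74 (Lh)

theorem cx_of {κ : Type} [Fintype κ] [DecidableEq κ] {J p : En κ} (h : CP J p)
    {D : CL (Hd J p) (Hd J p)} (hD : ∀ v, D (JH J p v) = JH J p (D v)) : Cx D (JH J p) := by
  refine ⟨fun v => (pow_left_inj₀ (norm_nonneg _) (norm_nonneg _) two_ne_zero).1 ?_, fun v => ?_,
    fun v e => by rw [hD, e, map_zero]⟩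
  · rw [← real_inner_self_eq_norm_sq, Hol14.JH_skew h, Hol14.JH_JH h, inner_neg_right, neg_neg,
      real_inner_self_eq_norm_sq]
  · have := Hol14.JH_skew h v v
    rw [real_inner_comm (JH J p v) v] at this
    linarith

section gen
variable {E : Type} [NormedAddCommGroup E] [NormedSpace ℝ E] [FiniteDimensional ℝ E]
  [MeasurableSpace E] [BorelSpace E]
  {HM : Type} [TopologicalSpace HM] {I : ModelWithCorners ℝ E HM} [I.Boundaryless]
  {M : Type} [TopologicalSpace M] [ChartedSpace HM M] [IsManifold I ∞ M] [MeasurableSpace M]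
  [BorelSpace M] [T2Space M] [SecondCountableTopology M] {ι lam α : Type} [Fintype ι] [Fintype lam]
  {r : ℕ} {B : Base M ι lam}

theorem Rh_p {m : Md M ι lam} (hB : B.OK I) (H : m.OK I B) (k : Cut M lam) (η : Circle)
    (a : k.H B m) : Cnt93.Rh k k B B m.p η a = cH m B k (csE m.J η) a :=
  have cp := cp_pp hB H k.x0
  have P := Std94.pmx H k.x0
  ((cp.it (H.Jp _) ((Std94.pp_p hB P).trans (Std94.p_pp hB P).symm)).rH_rH a).symm.trans
    (congrArg _ (Hol14.rH_p cp (Std94.p_pp hB P) a))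

theorem lh_phs {G : Geo I M ι lam} {c : Cfg M ι lam r} (h : Lh c B G) (a : c.Adm B G) (ξ : Circle) :
    Lh (phs ξ c) B G :=
  have a' := adm_phs ξ a
  ⟨h.hB, h.hG, h.tame, h.ok, h.conn, a'.sm, a'.pos, h.bΦ.imp fun _ k x => by
    simpa [Mp86.norm_cs h.ok.Jsq h.ok.Jsk] using k x, h.bF⟩

variable {l : Ultrafilter α} {G : α → Geo I M ι lam} {G₀ : Geo I M ι lam} {c : α → Cfg M ι lam r}
  {b : Cfg M ι lam r} {u : ∀ n, M → CL (c n).m.V b.m.V} {ζ : α → Circle}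

theorem lim_of (h : ULim I B l univ (fun n => (G n).F.e) c b u ζ) (ha : ∀ n, (c n).m.OK I B)
    (hb : b.Adm B G₀) : (fx l B G G₀).Lim (fun n => phs (ζ n) (c n)) b ∅ u where
  adm := hb
  P := subset_rfl
  fin _ _ := by simp
  iso x _ := let ⟨N, n1, n2, n3⟩ := h.m x trivial
    ⟨N, n1, n2, n3.mono fun n k => .of_mEq n1 k (Pj41.OK.on (ha n) _) (Pj41.OK.on hb.ok _)⟩
  A a := (h.A a).mono le_rfl (subset_univ _)
  Φ := (h.Φ.mono le_rfl (subset_univ _)).congr (fun x _ => let ⟨N, n1, n2, n3⟩ := h.m x trivial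
    (n3.prod_mk (n1.mem_nhds n2)).mono fun _ k => ((me_of_meq k.1 k.2).cs _ _).symm) fun _ _ => rfl
  z := h.z

end gen

variable {Wi : Type} {X : Mf 4} {A κ lam : Type} [Fintype A] [Fintype κ] [Fintype lam]
  [DecidableEq lam] {M : Mark X A κ} {W : World M} {N : ML M lam} {Λ : Lns W N}
  {A' h : Type} [Fintype A'] [DecidableEq A'] [Fintype h] {r n : ℕ}
  {J : Job Wi Λ A' h r n} {c : M.Cl} {σ : Cel A'} (hJ : J.OK) (hσ : σ ∈ J.𝒦)
include hJ hσ

theorem sol_lh {q : Wi →₀ ℝ} {y : J.Obc c} (h : Sol σ q y) : Lh y.x (J.B c) (J.G c y.s) := by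
  have a := h.sol.toAdm
  obtain ⟨x, gd, iso⟩ := Lit63.litJ hJ σ hσ c q y h
  have hT := hJ.tame hσ h.ov
  obtain ⟨D, hD⟩ := Fin37.cb_Fg gd
  exact ⟨Λ.B_ok _ _, hJ.G_ok hσ h.ov, hT, a.ok, a.conn, a.sm, a.pos, h.bdd hJ hσ, √D, fun z =>
    ((Fin37.iso_inv (Λ.B_ok _ _) (hJ.G_ok hσ h.ov) hT gd.adm a iso).2.2.2.1 z).trans_le
      (Real.le_sqrt_of_sq_le (hD z))⟩

/-- **the spinors are uniformly bounded** -/
theorem ub_Φ {α : Type} {l : Filter α} {q : α → Wi →₀ ℝ} {y : α → J.Obc c} {q₀ y₀}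
    (hy : ∀ᶠ i in l, Sol σ (q i) (y i)) (h₀ : Sol σ q₀ y₀) (h : Str l y y₀) :
    ∃ C, ∀ᶠ i in l, ∀ x, ‖(y i).x.Φ x‖ ≤ C := by
  have k : ∀ a b, ∃ C, ∃ S ∈ 𝓝[>] (0 : ℝ), ∀ᶠ i in l, a ∈ cylW c → ∀ ε ∈ S, ∀ v,
      ‖(y i).x.Φ (W.nj c a (v, X212.M.pm b * ε))‖ ≤ C := by
    intro a b
    by_cases ha : a ∈ cylW c
    swap; · exact ⟨0, univ, univ_mem, .of_forall fun _ k => (ha k).elim⟩
    have hb := (h₀.crit a ha b).sol.toAdm
    obtain ⟨T, hT⟩ := h.tail a b 1 one_pos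
    obtain ⟨C, hC⟩ := isCompact_univ.exists_bound_of_continuousOn
      (hb.sm.continuous.comp (Continuous.prodMk_left (0 : ℝ))).continuousOn
    have h1 : ∀ᶠ ε in 𝓝[>] (0 : ℝ), T ≤ -X212.M.pm b * len 1 b (X212.M.pm b * ε) := by
      cases b
      · simpa [X212.M.pm] using (tendsto_len false).eventually (eventually_ge_atTop T)
      · simpa [X212.M.pm, le_neg] using (tendsto_len true).eventually (eventually_le_atBot (-T))
    refine ⟨1 + C, _, h1.and (Ioo_mem_nhdsGT one_pos), (hT.and hy).mono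
      fun i ⟨h2, h⟩ _ ε ⟨h3, h4⟩ v => ?_⟩
    obtain ⟨-, u, ζ, h2⟩ := h2 (h.act hJ hσ ha b) _ h3
    have e := (hJ.nk _ _ _ _ (h.act hJ hσ ha b)).ψ ((J.g a).symm v) (X212.M.pm b * ε)
      (by cases b <;> simp [X212.M.pm, h4.1, h4.2]) (by cases b <;> simp [X212.M.pm, h4.1, h4.2])
    rw [Diffeomorph.apply_symm_apply, show (J.Θ (y i).s).2 a = 1 from h.inf.ge ha.1] at e
    have m : ((J.g a).symm v, len 1 b (X212.M.pm b * ε)) ∈ univ ×ˢ Ioo
        (len 1 b (X212.M.pm b * ε) - 1⁻¹) (len 1 b (X212.M.pm b * ε) + 1⁻¹) := ⟨trivial, by simp⟩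
    have e1 := h2.P [] (Nat.zero_le _) _ m
    have e2 : ‖u _ _‖ = _ := ME.norm ⟨h2.m.uu _ m, h2.m.uu' _ m, h2.m.J _ m, h2.m.ρ _ m, h2.m.j _ m⟩
      (p_Φ (ad0 h.sol.toAdm) _)
    have e3 := Mp86.norm_cs hb.ok.Jsq hb.ok.Jsk ζ (u ((J.g a).symm v, len 1 b (X212.M.pm b * ε))
      ((y i).x.Φ ((J.K c a _ _ (h.act hJ hσ ha b)).ψ ((J.g a).symm v, len 1 b (X212.M.pm b * ε)))))
    rw [Circle.norm_coe, one_mul] at e3
    erw [← e, ← e2, ← e3]
    exact (norm_le_norm_sub_add _ _).trans (add_le_add e1 (hC _ trivial))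
  choose C S hS hC using k
  obtain ⟨ε, hε, k⟩ := (nhdsGT_basis (0 : ℝ)).eventually_iff.1
    (eventually_all.2 fun a => eventually_all.2 (hS a))
  obtain ⟨u, ζ, L, -⟩ := h.lim
  obtain ⟨C', hC'⟩ := ub_cpt (l := l) (Cyl58.isCompact_thick W.toCaps (c := c) hε)
    (f := fun i x => ‖(y i).x.Φ x‖) fun x _ => by
      obtain ⟨D, hD⟩ := (L.Φ.mb 0 x trivial).bdd
      obtain ⟨N, n1, n2, n3⟩ := L.m x trivial
      refine ⟨D, (hD.and ((n3.and hy).prod_mk (n1.mem_nhds n2))).mono fun q k => ?_⟩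
      have := k.1
      rwa [Mp86.norm_cs h₀.sol.ok.Jsq h₀.sol.ok.Jsk, Circle.norm_coe, one_mul,
        (me_of_meq k.2.1.1 k.2.2).norm (p_Φ (ad0 k.2.1.2.sol.toAdm) _)] at this
  obtain ⟨C'', h''⟩ := Finite.exists_le fun p : A × Bool => C p.1 p.2
  refine ⟨max C' C'', (hC'.and (eventually_all.2 fun a => eventually_all.2 (hC a))).mono
    fun i hi x => ?_⟩
  by_cases hx : x ∈ Cyl58.thin W.toCaps c ε
  · obtain ⟨_, hz, rfl⟩ := hx
    obtain ⟨a, ha, ⟨v, s⟩, ⟨-, h1, h2⟩, rfl⟩ := mem_iUnion₂.1 hz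
    have := hi.2 a (decide (0 < s)) ha _ (k (x := |s|) ⟨abs_pos.2 h1, h2⟩ a _) v
    rw [show X212.M.pm (decide (0 < s)) * |s| = s by
      rcases lt_or_gt_of_ne h1 with k | k <;> simp [X212.M.pm, k, abs_of_pos, abs_of_neg, k.not_gt]] at this
    exact (this.trans (h'' (a, _))).trans (le_max_right _ _)
  · exact (hi.1 x hx).trans (le_max_left _ _)

variable {s : A' → ℝ} (o : J.Ov σ c s) {l : h} (hl : l ∈ J.unc c) {x : Cg' W c lam r}
  (a : x.Adm (J.B c) (J.G c s)) (q : Wi →₀ ℝ)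
include o hl a

theorem σc_nat (ξ η : Circle) (v : (J.cut c l).H (J.B c) x.m) :
    J.σc c q s l (phs ξ x) (cH x.m _ _ (csE x.m.J η) v) = cH x.m _ _ (csE x.m.J η) (J.σc c q s l x v) := by
  have := hJ.σc_nat hσ o isClopen_univ hl (subset_univ _) q (cr0_univ (ad0 a) (ad0_phs ξ (ad0 a))
    (ceq_phs ξ (Λ.B_ok _ _) (hJ.G_ok hσ o) (ad0 a) isOpen_univ)) η v
  rw [← Rh_p (Λ.B_ok _ _) a.ok, ← Rh_p (Λ.B_ok _ _) a.ok]
  exact this

theorem σc_phs (ξ : Circle) : J.σc c q s l (phs ξ x) = J.σc c q s l x := by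
  ext1 v
  have := σc_nat hJ hσ o hl a q ξ 1 v
  have cp := cp_pp (Λ.B_ok J.m c) a.ok (J.cut c l).x0
  simpa only [Hol14.rH_csE cp, Circle.coe_one, Complex.one_re, Complex.one_im, one_smul, zero_smul,
    add_zero] using this

/-- the operator of the row -/
abbrev Dr (J : Job Wi Λ A' h r n) (c : M.Cl) (q : Wi →₀ ℝ) (s : A' → ℝ) (l : h) (x : Cg' W c lam r) :=
  (J.cut c l).T (J.B c) (J.G c s).F x.m x.W - J.σc c q s l x

theorem cx_Dr : Cx (Dr J c q s l x) (JH _ _) := by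
  have cp := cp_pp (Λ.B_ok J.m c) a.ok (J.cut c l).x0
  refine cx_of cp fun v => ?_
  have := σc_nat hJ hσ o hl a q 1 ⟨Complex.I, by simp [Submonoid.unitSphere]⟩ v
  simp only [σc_phs hJ hσ o hl a, Hol14.rH_csE cp, Complex.I_re, Complex.I_im, one_smul, zero_smul,
    zero_add] at this
  rw [_root_.sub_apply, _root_.sub_apply, map_sub, this,
    Hol14.JH_T (Λ.B_ok _ _) a.ok (hJ.ct σ hσ s o.1 c o.2 l hl) (Hol14.cn0_of a.conn)]

theorem line_iff : Line J c q s x l ↔ Ln (Dr J c q s l x) (JH _ _) := by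
  have cp := cp_pp (Λ.B_ok J.m c) a.ok (J.cut c l).x0
  simp only [Line, Ln, Cut.Sol, Hol14.rH_csE cp, _root_.sub_apply, sub_eq_zero, and_imp]

end Crest.Agent.X212.Ksc68
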