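import Crest.Agent.X212.Cpt31.Hyp
import Crest.Agent.X212.Abel74.Lit

/-!
# Row 212, RFQ-KSC (helper68): smooth limits without exceptional set satisfy the hypotheses of COMP
-/

set_option autoImplicit false
set_option linter.unusedSectionVars false
noncomputable section
open scoped Manifold ContDiff Topology InnerProductSpace NNReal
open MeasureTheory Set Function Filter Metric

namespace Crest.Agent.X212.Ksc68
open An Cmp73 Cmp73.Gs Eqv71 Shi84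
open Wz78 (nab dir)

variable {E : Type} [NormedAddCommGroup E] [NormedSpace ℝ E] [FiniteDimensional ℝ E]
  [MeasurableSpace E] [BorelSpace E]
  {HM : Type} [TopologicalSpace HM] {I : ModelWithCorners ℝ E HM} [I.Boundaryless]
  {E₀ : Type} [NormedAddCommGroup E₀] [NormedSpace ℝ E₀] [FiniteDimensional ℝ E₀]
  [MeasurableSpace E₀] [BorelSpace E₀]
  {H₀ : Type} [TopologicalSpace H₀] {I₀ : ModelWithCorners ℝ E₀ H₀} [I₀.Boundaryless]
  {M : Type} [TopologicalSpace M] [ChartedSpace H₀ M] [IsManifold I₀ ∞ M] [MeasurableSpace M]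
  [BorelSpace M] [T2Space M] [SecondCountableTopology M] {ι lam α : Type} [Fintype ι] [Fintype lam]
  {X : α → Type} [∀ n, TopologicalSpace (X n)] [∀ n, ChartedSpace HM (X n)]
  [∀ n, IsManifold I ∞ (X n)] [∀ n, MeasurableSpace (X n)] [∀ n, BorelSpace (X n)]
  [∀ n, T2Space (X n)] [∀ n, SecondCountableTopology (X n)] {r : ℕ}
  {g : Gs I I₀ M ι lam X} {c : ∀ n, Cfg (X n) ι lam r} {x : M}

/-- locally bounded densities do not concentrate -/
theorem nc_of_bd (hg : g.OK) {f : ∀ n, X n → ℝ} (hf : ∀ n, Continuous (f n)) {C : ℝ}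
    (h : ∀ᶠ q in (g.l : Filter α) ×ˢ 𝓝 x, f q.1 (g.ψ q.1 q.2) ≤ C) : NC g f x := fun ε ε0 => by
  obtain ⟨V, γ, V0, γ0, v⟩ := vol_up (fcv hg) (.of_forall fun n => (hg.H n).vol) hg.G₀.vol hg.h4 x
  obtain ⟨A, hA, T, hT, k⟩ := eventually_prod_iff.1 h
  have hm := ch0_mem (I := I₀) x
  set κ := ch0 I₀ x
  have t : Tendsto (fun s : ℝ => |C| * (V * s ^ 4)) (𝓝[>] 0) (𝓝 0) :=
    ((by fun_prop : Continuous fun s : ℝ => |C| * (V * s ^ 4)).tendsto' _ _ (by simp)).mono_left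
      nhdsWithin_le_nhds
  obtain ⟨s, s1, s0, s2⟩ := ((t.eventually (ge_mem_nhds ε0)).and (Ioc_mem_nhdsGT γ0)).exists
  obtain ⟨O, o1, o2, o3⟩ := mem_nhds_iff.1 (inter_mem hT (inter_mem (κ.open_source.mem_nhds hm)
    ((κ.continuousAt hm).preimage_mem_nhds (ball_mem_nhds _ s0))))
  refine ⟨O, o2.mem_nhds o3, ?_⟩
  filter_upwards [hA, v] with n h1 h2
  rw [li_eq hg o2 (hf n)]
  refine (setLIntegral_mono' (g := fun _ => ENNReal.ofReal |C|)
    (o2.inter (g.ψ n).open_source).measurableSet fun y hy =>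
      ENNReal.ofReal_le_ofReal ((k h1 (o1 hy.1).1).trans (le_abs_self _))).trans ?_
  rw [setLIntegral_const]
  refine (mul_le_mul_right ((measure_mono fun y hy => ?_).trans (h2 s s0 s2)) _).trans ?_
  · exact ⟨κ y, (o1 hy.1).2.2, κ.left_inv (o1 hy.1).2.1⟩
  · rw [← ENNReal.ofReal_mul (abs_nonneg _)]
    exact ENNReal.ofReal_le_ofReal s1

variable {b : Cfg M ι lam r} {u : ∀ n, M → CL (c n).m.V b.m.V} (h : g.Lim c b ∅ u) (hg : g.OK)
  (ha : ∀ n, (c n).Adm (g.B n) (g.G n))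
include h

theorem ev_F {p : ∀ n, X n → Prop} (k : ∀ᶠ q in (g.l : Filter α) ×ˢ 𝓝 x, p q.1 (g.ψ q.1 q.2)) :
    ∀ᶠ q in g.F g.Pᶜ x, p q.1 q.2 := eventually_map.2 (nF_le k)

include hg ha

theorem bdV (v : List ι) : ∀ {s : ∀ n, X n → (c n).m.V} {s' : M → b.m.V}, g.LV c b ∅ u s s' →
    (∀ n, Sm I (s n)) → (∀ n y, (c n).m.p y (s n y) = s n y) →
    ∃ K, ∀ᶠ q in g.F g.Pᶜ x, ‖Dw I (g.G q.1).F.e (c q.1).W v (s q.1) q.2‖ ≤ K := by
  induction v with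
  | nil =>
    intro s s' k _ p
    obtain ⟨K, hK⟩ := (k.cv.mb 0 x id).bdd
    have e : ∀ᶠ q in g.F g.Pᶜ x, ‖s q.1 q.2‖ ≤ K := ev_F h (p := fun n y => ‖s n y‖ ≤ K)
      ((hK.and (h.nr hg ha (x := x) id)).mono fun _ hq => (hq.2.me.norm (p _ _)).ge.trans hq.1)
    exact ⟨K, e⟩
  | cons a v ih =>
    intro s s' k sm p
    have := ih (k.nab h hg ha sm a)
      (fun n => sm_nab (Wz78.frm (g.G n).F).se (ha n).conn.cc.sm (sm n) a) fun n y =>
        ((ha n).conn.cc.p_nab_ev a (sm n y) (.of_forall (p n))).self_of_nhds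
    exact this

theorem bdA (v : List ι) : ∀ {s : ∀ n, X n → (c n).m.A} {s' : M → b.m.A}, g.LA c b ∅ u s s' →
    (∀ n, Sm I (s n)) → (∀ n y, s n y ∈ (c n).m.gS y) →
    ∃ K, ∀ᶠ q in g.F g.Pᶜ x, ‖Dw I (g.G q.1).F.e (WA c q.1) v (s q.1) q.2‖ ≤ K := by
  induction v with
  | nil =>
    intro s s' k _ p
    obtain ⟨K, hK⟩ := (k.cv.mb 0 x id).bdd
    have e : ∀ᶠ q in g.F g.Pᶜ x, ‖s q.1 q.2‖ ≤ K := ev_F h (p := fun n y => ‖s n y‖ ≤ K)
      ((hK.and (h.nr hg ha (x := x) id)).mono fun _ hq => (hq.2.norm_cj h hg ha (p _ _)).ge.trans hq.1)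
    exact ⟨K, e⟩
  | cons a v ih =>
    intro s s' k sm p
    have := ih (k.nab h hg ha sm a)
      (fun n => sm_nab (Wz78.frm (g.G n).F).se (Wz78.con_adW (ha n).conn).sm (sm n) a) fun n y =>
        Wz78.nab_mem_g (ha n).ok (ha n).conn a (sm n y) (p n)
    exact this

theorem gx (x : M) : Gx g.B g.G c (g.F g.Pᶜ x) := hg.gx ha subset_rfl x

theorem cbV (x : M) {s : ∀ n, X n → (c n).m.V} {s' : M → b.m.V} (k : g.LV c b ∅ u s s')
    (sm : ∀ n, Sm I (s n)) (p : ∀ n y, (c n).m.p y (s n y) = s n y) :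
    (g.fb c (g.F g.Pᶜ x)).CB (WV c) s :=
  Fb.cb_iff.2 ⟨(gx h hg ha x).sV, sm, fun v => bdV h hg ha v k sm p⟩

theorem cbΦ (x : M) : (g.fb c (g.F g.Pᶜ x)).CB (WV c) fun n => (c n).Φ := by
  have a := gx h hg ha x
  have k : g.LV c b ∅ u (fun n => (c n).Φ) b.Φ := ⟨h.adm.sm, h.Φ⟩
  exact cbV h hg ha x k a.sm a.pΦ

theorem cbF (x : M) (s : ι × ι) : (g.fb c (g.F g.Pᶜ x)).CB (WA c) (gF' g.G c s) :=
  have a := gx h hg ha x
  Fb.cb_iff.2 ⟨a.sA, a.sF s, fun v => bdA h hg ha v (h.Fg hg ha s) (a.sF s) fun _ _ => Wz78.Fg_mem ..⟩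

theorem nc (x : M) : NC g (fun n y => ‖g.Fg c n y‖ ^ 2) x := by
  choose C hC using fun s => (Fb.cb_iff.1 (cbF h hg ha x s)).2.2 []
  refine nc_of_bd hg (fun n => (Mp86.sm_Fg (hg.B n) (hg.G n) (ha n).ok (ha n).conn).continuous.norm.pow 2)
    (C := ∑ s, C s ^ 2) ((eventually_all.2 fun s => le_nF (show x ∈ g.Pᶜ from fun k => h.P k) (hC s)).mono fun q hq => ?_)
  rw [PiLp.norm_sq_eq_of_L2]
  exact Finset.sum_le_sum fun s _ => pow_le_pow_left₀ (norm_nonneg _) (hq s) 2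

theorem S_eq : g.S c = ∅ :=
  eq_empty_of_forall_notMem fun x hx => hx.elim (fun k => h.P k) (Cpt31.not_bub (nc h hg ha x))

theorem hyp : g.Hyp c := by
  refine ⟨ha, fun x => (Fb.cb_iff.1 (cbΦ h hg ha x)).2.2 [], fun x => Cpt31.en_of_nc (nc h hg ha x) hg,
    fun x => ?_, .of_pf fun x s => pf_iff.2 (.of fun L _ dw _ _ => ?_)⟩
  · have a := gx h hg ha x
    exact Fb.CB.pf (Wt.sum a.sV fun i => (a.cb_ρ i).app a.sV ((cbΦ h hg ha x).D i) cn00)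
  · have a := gx h hg ha x
    have p := (cbΦ h hg ha x).wt L dw (sP dw)
    exact (a.wt_p2 sP_mono (fun t => (cbF h hg ha x t).wt L dw _) s).sub (a.wt_mu p p s)

/-- **the limit of the word layer** -/
theorem lb (bf : ∃ C, ∀ x, ‖b.m.Fg g.G₀.F b.W x‖ ≤ C) : g.LB c b u :=
  ⟨hyp h hg ha, (S_eq h hg ha).symm ▸ h, bf⟩

theorem bk (ht : ∃ C, g.G₀.F.Tame C) (hΦ : g.UB fun n => (c n).Φ) : g.Bk c :=
  hg.bk (fun _ _ hP fin _ _ => ⟨b, u, h.adm, hP, fin, fun x _ => h.iso x id,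
    fun a => (h.A a).mono le_rfl fun _ _ => id, h.Φ.mono le_rfl fun _ _ => id, h.z⟩) ht ha hΦ

end Crest.Agent.X212.Ksc68
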