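import Crest.Agent.X212.Ksc68.Bd

/-!
# Row 212, RFQ-KSC (helper68): the leaf from the convergence of rows on one manifold
-/

set_option autoImplicit false
set_option linter.unusedSectionVars false
noncomputable section
open scoped Manifold ContDiff Topology InnerProductSpace
open Set Function Filter

namespace Crest.Agent.X212.Ksc68
open An An.Job M Nd18 Cmp73 Eqv71 Qab60
open Hol14 (cH JH CP cp_pp)
open Abel74 (Lh)

section gen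
variable {E : Type} [NormedAddCommGroup E] [NormedSpace ℝ E] [FiniteDimensional ℝ E]
  [MeasurableSpace E] [BorelSpace E]
  {HM : Type} [TopologicalSpace HM] (I : ModelWithCorners ℝ E HM) [I.Boundaryless]
  (M : Type) [TopologicalSpace M] [ChartedSpace HM M] [IsManifold I ∞ M] [MeasurableSpace M]
  [BorelSpace M] [T2Space M] [SecondCountableTopology M] (ι lam : Type) [Fintype ι] [Fintype lam]

/-- the parts of a row converge along limits -/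
def RowCv : Prop := ∀ (α : Type) (r : ℕ) (l : Ultrafilter α) (B : Base M ι lam) (G : α → Geo I M ι lam)
  (G₀ : Geo I M ι lam) (c : α → Cfg M ι lam r) (b : Cfg M ι lam r) u (k : Cut M lam),
  (fx l B G G₀).OK → (∀ n, (c n).Adm B (G n)) → (fx l B G G₀).Lim c b ∅ u →
  (∀ n, k.OK B (G n).F) → k.OK B G₀.F → ∃ R : ∀ n, CL (k.H B (c n).m) (k.H B b.m),
    (∀ᶠ n in (l : Filter α), (∀ v, ‖R n v‖ = ‖v‖) ∧ ∀ v, R n (JH _ _ v) = JH _ _ (R n v)) ∧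
    Iw l R (k.T B G₀.F b.m b.W) (fun n => k.T B (G n).F (c n).m (c n).W) ∧
    ∀ (Ξ : ∀ n, En (Fin (c n).m.N)) Ξ₀ a a' w,
      Tendsto (fun n => u n k.x0 ∘L Ξ n ∘L trn (u n k.x0)) l (𝓝 Ξ₀) →
      Iw l R (frk _ _ a a' (k.pi B G₀.F b.m k.x0 * csE b.m.J w * Ξ₀ * k.pi B G₀.F b.m k.x0))
        fun n => frk _ _ a a'
          (k.pi B (G n).F (c n).m k.x0 * csE (c n).m.J w * Ξ n * k.pi B (G n).F (c n).m k.x0)

end gen

variable {Wi : Type} {X : Mf 4} {A κ lam : Type} [Fintype A] [Fintype κ] [Fintype lam]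
  [DecidableEq lam] {M : Mark X A κ} {W : World M} {N : ML M lam} {Λ : Lns W N}
  {A' h : Type} [Fintype A'] [DecidableEq A'] [Fintype h] {r n : ℕ}
  {J : Job Wi Λ A' h r n} {c : M.Cl} {σ : Cel A'}

theorem σc_eq {q : Wi →₀ ℝ} {S : Finset Wi} (hS : q.support ⊆ S) (s : A' → ℝ) (l : h)
    (x : Cg' W c lam r) : J.σc c q s l x = ∑ w ∈ S, (q w * J.cc l w s) •
      x.tc (J.B c) (J.G c s).F (J.cut c l) ((J.tp c).tc (J.tc l w)) :=
  Finsupp.sum_of_support_subset _ hS _ fun _ _ => by rw [zero_mul, zero_smul]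

variable (H : RowCv (W.Z c).I (W.Z c).M (Option κ) (lam ⊕ lam)) (hJ : J.OK) (hσ : σ ∈ J.𝒦)
include H hJ hσ

/-- the rows converge -/
theorem row_cv {α : Type} {𝒰 : Ultrafilter α} {q : α → Wi →₀ ℝ} {y : α → J.Obc c} {q₀}
    {y₀ : J.Obc c} (hq : St.Cv (𝒰 : Filter α) q q₀) (hy : ∀ i, Sol σ (q i) (y i)) (h₀ : Sol σ q₀ y₀)
    (hs : Tendsto (fun i => (y i).s) 𝒰 (𝓝 y₀.s)) {u ζ}
    (L : ULim (W.Z c).I (J.B c) 𝒰 univ (fun i => J.fr c (y i).s) (fun i => (y i).x) y₀.x u ζ)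
    (hΦ : ∃ C, ∀ᶠ i in (𝒰 : Filter α), ∀ x, ‖(y i).x.Φ x‖ ≤ C) {l : h} (hl : l ∈ J.unc c) :
    ∃ R : ∀ i, CL ((J.cut c l).H (J.B c) (y i).x.m) ((J.cut c l).H (J.B c) y₀.x.m),
      (∀ᶠ i in (𝒰 : Filter α), (∀ v, ‖R i v‖ = ‖v‖) ∧ ∀ v, R i (JH _ _ v) = JH _ _ (R i v)) ∧
      Iw 𝒰 R (Dr J c q₀ y₀.s l y₀.x) fun i => Dr J c (q i) (y i).s l (y i).x := by
  classical
  have hp := (hJ.sm.continuous.tendsto _).comp hs
  have k1 := fun z => (W.isOpen_Ω (c := c)).mem_nhds (Mark.mem_Ω _ (h₀.ok hJ hσ).2 z)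
  have k2 : ∀ i z, (J.Θ (y i).s, z) ∈ M.Ω c.1 (W.φ c) := fun i => Mark.mem_Ω _ ((hy i).ok hJ hσ).2
  have hg : (fx 𝒰 (J.B c) (fun i => J.G c (y i).s) (J.G c y₀.s)).OK :=
    fx_ok (W.Z c).dim (Λ.B_ok _ _) (fun i => hJ.G_ok hσ (hy i).ov) (hJ.G_ok hσ h₀.ov)
      (Lay.fcv _ hp k1 (.of_forall k2)) fun a => LLay.cv_a _ hp k1 (.of_forall k2) a
  have a := fun i => (hy i).sol.toAdm
  have e : (fun i => J.fr c (y i).s) = fun i => (J.G c (y i).s).F.e :=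
    funext fun i => (Lay.F_e _ (k2 i)).symm
  have lm := lim_of (G := fun i => J.G c (y i).s) (e ▸ L) (fun i => (a i).ok) h₀.sol.toAdm
  have a' := fun i => adm_phs (ζ i) (a i)
  have lh := fun i => lh_phs (sol_lh hJ hσ (hy i)) (a i) (ζ i)
  have k := bk lm hg a' (hJ.tame hσ h₀.ov) (hΦ.imp fun C hC => hC.mono fun i hi x => by
    simpa [Mp86.norm_cs (a i).ok.Jsq (a i).ok.Jsk] using hi x)
  obtain ⟨R, r1, r2, r3⟩ := H α r 𝒰 _ _ _ (fun i => phs (ζ i) (y i).x) _ u (J.cut c l) hg a' lm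
    (fun i => hJ.ct σ hσ _ (hy i).ov.1 c (hy i).ov.2 l hl) (hJ.ct σ hσ _ h₀.ov.1 c h₀.ov.2 l hl)
  refine ⟨R, r1, r2.sub ?_⟩
  obtain ⟨S, hS, hq⟩ := hq
  have s1 : ∀ i, (q i).support ⊆ S ∪ q₀.support := fun i w hw => by
    by_contra k
    rw [Finset.mem_union, not_or] at k
    exact k.2 (Finsupp.mem_support_iff.2 (hS i w k.1 ▸ Finsupp.mem_support_iff.1 hw))
  have e1 : ∀ i, J.σc c (q i) (y i).s l (y i).x = _ := fun i =>
    (σc_phs hJ hσ (hy i).ov hl (a i) (q i) (ζ i)).symm.trans (σc_eq (s1 i) _ _ _)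
  rw [σc_eq Finset.subset_union_right, funext e1]
  refine Iw.sum _ fun w _ => ?_
  by_cases hw : ∃ Ω, XiIn (W.Z c).I Ω ((J.tp c).tc (J.tc l w)).ξ
  · obtain ⟨Ω, hw⟩ := hw
    obtain ⟨Ξ, x1, x2⟩ := xi_lim k lm lh (sol_lh hJ hσ h₀).bF hw (J.cut c l).x0
    refine Iw.smul ?_ (r1.mono fun _ k => k.1)
      ((hq w).mul (((hJ.cc l w).continuous.tendsto _).comp hs))
    have := r3 _ Ξ ((J.tp c).tc (J.tc l w)).m ((J.tp c).tc (J.tc l w)).n ((J.tp c).tc (J.tc l w)).w x1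
    have p := Cnt93.p_pi (J.cut c l) (F := (J.G c y₀.s).F) h₀.sol.ok (x := (J.cut c l).x0)
    rwa [← p, mul_assoc _ Ξ, ← mul_assoc Ξ, x2, p, mul_assoc (Cfg.xi _ _ _ _), p, ← mul_assoc] at this
  · have z : ∀ {s}, J.Ov σ c s → J.cc l w s = 0 := fun o => by_contra fun k => hw (hJ.tc_in hσ o k)
    simp only [z h₀.ov, z (hy _).ov, mul_zero, zero_smul]
    exact .zero

/-- **KSC** from the convergence of rows -/
theorem ksc_of : ∀ (α : Type) (𝒰 : Ultrafilter α) (q : α → Wi →₀ ℝ)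
    (y : α → J.Obc c) q₀ y₀, St.Cv (𝒰 : Filter α) q q₀ → (∀ᶠ i in (𝒰 : Filter α), Sol σ (q i) (y i)) →
    Sol σ q₀ y₀ → Str 𝒰 y y₀ → ∀ l ∈ J.unc c,
      (Line J c q₀ y₀.s y₀.x l → ∀ᶠ i in (𝒰 : Filter α), Line J c (q i) (y i).s (y i).x l) ∧
      ((∀ ψ, ¬Row J c q₀ y₀.s y₀.x l ψ) →
        ∀ᶠ i in (𝒰 : Filter α), ∀ ψ, ¬Row J c (q i) (y i).s (y i).x l ψ) := by
  intro α 𝒰 q y q₀ y₀ ⟨S, hS, hq⟩ hy h₀ h l hl
  obtain ⟨T, hT, hT'⟩ := hy.exists_mem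
  have hr : range (Subtype.val : T → α) ∈ 𝒰 := by rw [Subtype.range_coe]; exact hT
  let 𝒱 : Ultrafilter T := 𝒰.comap Subtype.val_injective hr
  have hm : map Subtype.val (𝒱 : Filter T) = 𝒰 := map_comap_of_mem hr
  have hv : Tendsto Subtype.val (𝒱 : Filter T) 𝒰 := hm.le
  obtain ⟨u, ζ, L, -⟩ := h.lim
  obtain ⟨R, r1, r2⟩ := row_cv H hJ hσ (𝒰 := 𝒱) (q := fun j => q j) (y := fun j => y j)
    ⟨S, fun j => hS j, fun w => (hq w).comp hv⟩ (fun j => hT' j j.2) h₀ (h.s.comp hv)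
    (u := fun j => u j) (ζ := fun j => ζ j) ⟨fun x hx => (L.m x hx).imp fun _ k =>
      ⟨k.1, k.2.1, hv.eventually k.2.2⟩, fun a => (L.A a).reindex hv, L.Φ.reindex hv, L.z.comp hv⟩
    ((ub_Φ hJ hσ hy h₀ h).imp fun _ k => hv.eventually k) hl
  have a := h₀.sol.toAdm
  have F : (Dr J c q₀ y₀.s l y₀.x).IsFredholm := (Hol14.fr_sub (Λ.B_ok _ _) a.ok
    (hJ.ct σ hσ _ h₀.ov.1 c h₀.ov.2 l hl) (Hol14.cn0_of a.conn) (by
      rw [σc_eq subset_rfl]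
      exact Hol14.cpt_sum _ fun w _ => (Hol14.cpt_tc _).smul (q₀ w * J.cc l w y₀.s))).1
  have r3 := r1.mono fun _ k => k.1
  rw [← hm]
  refine ⟨fun k => eventually_map.2 ?_, fun k => eventually_map.2 ?_⟩
  · refine (ev_ln F r2 r3 (r1.mono fun j k => ⟨cx_Dr hJ hσ (hT' j j.2).ov hl (hT' j j.2).sol.toAdm _,
      k.2⟩) ((line_iff hJ hσ h₀.ov hl a _).1 k)).mono fun j =>
        (line_iff hJ hσ (hT' j j.2).ov hl (hT' j j.2).sol.toAdm _).2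
  · exact (ev_none F r2 r3 fun ψ e => k ψ ⟨e.1, sub_eq_zero.1 e.2⟩).mono fun j k ψ e =>
      k ψ ⟨e.1, sub_eq_zero.2 e.2⟩

end Crest.Agent.X212.Ksc68
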