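import Crest.Agent.X212.Ksc68.Hyp
import Crest.Agent.X212.An.Syn
import Crest.Agent.X212.Loc66.Fcv

/-!
# Row 212, RFQ-KSC (helper68): the words of the cut terms converge
-/

set_option autoImplicit false
set_option linter.unusedSectionVars false
noncomputable section
open scoped Manifold ContDiff Topology InnerProductSpace NNReal
open MeasureTheory Set Function Filter Metric

namespace Crest.Agent.X212.Ksc68
open An Cmp73 Cmp73.Gs Eqv71 Wrd81
open Abel74 (Lh SBd)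

theorem ub_cpt {α X : Type} [TopologicalSpace X] {l : Filter α} {K : Set X} (hK : IsCompact K)
    {f : α → X → ℝ} (h : ∀ x ∈ K, ∃ C, ∀ᶠ q : α × X in l ×ˢ 𝓝 x, f q.1 q.2 ≤ C) :
    ∃ C, ∀ᶠ i in l, ∀ x ∈ K, f i x ≤ C := by
  refine hK.induction_on (p := fun S => ∃ C, ∀ᶠ i in l, ∀ x ∈ S, f i x ≤ C) ⟨0, by simp⟩
    (fun s t hst ⟨C, ht⟩ => ⟨C, ht.mono fun i hi x hx => hi x (hst hx)⟩)
    (fun s t ⟨C, hs⟩ ⟨D, ht⟩ => ⟨max C D, (hs.and ht).mono fun i hi x hx =>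
      hx.elim (fun k => le_max_of_le_left (hi.1 x k)) fun k => le_max_of_le_right (hi.2 x k)⟩) ?_
  intro x hx
  obtain ⟨C, hC⟩ := h x hx
  obtain ⟨pa, hpa, pb, hpb, H⟩ := eventually_prod_iff.1 hC
  exact ⟨{y | pb y}, mem_nhdsWithin_of_mem_nhds hpb, C, hpa.mono fun i hi y hy => H hi hy⟩

theorem fl_cst {α β τ : Type} {R : (α → τ) → (β → τ) → Prop} :
    ∀ l : List τ, (∀ t ∈ l, R (fun _ => t) fun _ => t) →
      FL (τ := fun _ => τ) R (fun _ => l) fun _ => l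
  | [], _ => .nil
  | t :: l, h => .cons (h t List.mem_cons_self) (fl_cst l fun a ha => h a (List.mem_cons_of_mem _ ha))

variable {E : Type} [NormedAddCommGroup E] [NormedSpace ℝ E] [FiniteDimensional ℝ E]
  [MeasurableSpace E] [BorelSpace E]
  {HM : Type} [TopologicalSpace HM] {I : ModelWithCorners ℝ E HM} [I.Boundaryless]
  {M : Type} [TopologicalSpace M] [ChartedSpace HM M] [IsManifold I ∞ M] [MeasurableSpace M]
  [BorelSpace M] [T2Space M] [SecondCountableTopology M] {ι lam α : Type} [Fintype ι] [Fintype lam]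
  {r : ℕ}

/-- converging geometries on one manifold -/
abbrev fx (l : Ultrafilter α) (B : Base M ι lam) (G : α → Geo I M ι lam) (G₀ : Geo I M ι lam) :
    Gs I I M ι lam fun _ : α => M := ⟨l, fun _ => B, G, B, G₀, G, fun _ => .refl _, ∅⟩

variable {l : Ultrafilter α} {B : Base M ι lam} {G : α → Geo I M ι lam} {G₀ : Geo I M ι lam}

theorem fx_ok (h4 : Module.finrank ℝ E = 4) (hB : B.OK I) (hG : ∀ n, (G n).OK B) (h₀ : G₀.OK B)
    (f : Loc66.FCv l univ (fun n => (G n).F) G₀.F) (a : ∀ a, Cv I l univ (fun n => (G n).a a) (G₀.a a)) :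
    (fx l B G G₀).OK :=
  ⟨h4, fun _ => hB, hG, hB, h₀, hG, finite_empty, fun _ _ => .of_forall fun _ => trivial,
    fun _ => Pj41.FRel.refl _ isOpen_univ, fun _ _ _ _ _ _ _ => rfl, fun _ _ _ => rfl, fun _ => rfl,
    fun _ _ _ _ => rfl, fun a => ⟨fun k x => (f a).mb k x trivial, fun x => (f a).pt x trivial⟩,
    f.c isOpen_univ, a⟩

variable (hg : (fx l B G G₀).OK) (c : α → Cfg M ι lam r) {Ω : Set M}
include hg

theorem fk {N : Type} [NormedAddCommGroup N] [NormedSpace ℝ N] {f : M → N} (sm : Sm I f)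
    (hc : HasCompactSupport f) : (fx l B G G₀).FK c (fun _ => f) f :=
  ⟨hg.fc (fun _ => sm) (let ⟨C, hC⟩ := sm.continuous.bounded_above_of_compact_support hc
      ⟨C, .of_forall fun _ => hC⟩) sm (fun _ _ _ => rfl) (Cv.fixed' sm),
    tsupport f, hc, fun _ _ => id, fun _ => image_eq_zero_of_notMem_tsupport,
    .of_forall fun _ x hx => image_eq_zero_of_notMem_tsupport fun k => hx ⟨x, k, rfl⟩⟩

theorem fd {f : M → ℝ} (hf : Tf I Ω f) : (fx l B G G₀).FD c (fun _ => f) f :=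
  hg.fd (fun _ => hf.sm) hf.sm (fun a => by
    obtain ⟨C, hC⟩ := ub_cpt (l := l) hf.hcs (f := fun n x => ‖(G n).F.D a f x‖) fun x _ =>
      ((hg.cv_D isOpen_univ (Cv.fixed' hf.sm) a).mb 0 x trivial).bdd
    refine ⟨max C 0, hC.mono fun n hn x => ?_⟩
    by_cases k : x ∈ tsupport f
    · exact le_max_of_le_left (hn x k)
    · exact le_max_of_le_right (norm_le_zero_iff.2
        (image_eq_zero_of_notMem_tsupport fun k' => k ((G n).F.tsupport_D f a k')))) fun _ _ _ => rfl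

theorem sw {u : SW M} (hu : SwIn I Ω u) : (fx l B G G₀).cS c (fun _ => u) fun _ => u :=
  fl_cst u fun a ha => by
    have := hu a ha
    cases a
    exacts [.mul (fk hg c this.sm this.hcs).qs, .cl (fd hg c this), .im, .G]

theorem ll {v : List (La M)} (hl : LlIn I Ω v) : FL ((fx l B G G₀).cLa c) (fun _ => v) fun _ => v :=
  fl_cst v fun a ha => by
    have := hl a ha
    cases a
    exacts [.mul (fk hg c this.sm this.hcs).qs, .G]

theorem sg {a : Sg M lam} (ha : SgIn I Ω a) : (fx l B G G₀).cG c (fun _ => a) fun _ => a :=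
  .mk (fk hg c ha.1.sm ha.1.hcs) (sw hg c ha.2.1) (sw hg c ha.2.2)

theorem co {d : Co M lam r} (hd : CoIn I Ω d) : (fx l B G G₀).cC c (fun _ => d) fun _ => d := by
  cases d
  exacts [.z _, .s (sg hg c hd.1) (fl_cst _ fun a ha => sg hg c (hd.2 a ha))]

omit hg
variable {c} {b : Cfg M ι lam r} {u : ∀ n, M → CL (c n).m.V b.m.V}
  (k : (fx l B G G₀).Bk c) (h : (fx l B G G₀).Lim c b ∅ u)
include k h

/-- the curvature seed -/
theorem qa_cv {f a d : M → ℝ} (hf : Tf I Ω f) (ha : Tf I Ω a) (hd : Tf I Ω d) :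
    (fx l B G G₀).QA c (fun n => cvS (c n) (G n).F f a d) fun b => cvS b G₀.F f a d := by
  have hφ := fun s : ι × ι => ((fk k.ok c hf.sm hf.hcs).toFC.mul (fd k.ok c ha s.1)).mul (fd k.ok c hd s.2)
  have cF := cbF h k.ok k.adm
  refine ⟨fun x => Fb.CB.pf (Wt.sum (k.gx x).sA fun s => ((hφ s).cb x).smul (cF x s) cn00),
    fun _ _ => Submodule.sum_mem _ fun _ _ => Submodule.smul_mem _ _ (Wz78.Fg_mem _ _), ?_,
    fun b u l => LA.sum fun s => LA.smul (hφ s).sm ((hφ s).cv.mono le_rfl sub_S) (l.lim.Fg k.ok k.adm s)⟩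
  choose D hD using fun s => (hφ s).bd
  choose C hC using fun s => ub_cpt (l := l) hf.hcs
    (f := fun n x => ‖(c n).m.Fg (G n).F (c n).W x s‖) fun x _ =>
      let ⟨C, hC⟩ := (Fb.cb_iff.1 (cF x s)).2.2 []
      ⟨C, le_nF (show x ∈ (∅ : Set M)ᶜ from id) hC⟩
  refine ⟨∑ s, D s * |C s|, ((eventually_all.2 hD).and (eventually_all.2 hC)).mono fun n hn x =>
    norm_sum_le_of_le _ fun s _ => ?_⟩
  have D0 := (norm_nonneg _).trans (hn.1 s x)
  by_cases e : x ∈ tsupport f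
  · exact (norm_smul _ _).trans_le (mul_le_mul (hn.1 s x) ((hn.2 s x e).trans (le_abs_self _))
      (norm_nonneg _) D0)
  · rw [image_eq_zero_of_notMem_tsupport e, zero_mul, zero_mul, zero_smul, norm_zero]
    positivity

variable (lh : ∀ n, Lh (c n) B (G n))
include lh

theorem qa_sd {s : Sd M} (hs : SdIn I Ω s) :
    (fx l B G G₀).QA c (fun n => (c n).sd (G n).F s) (fun b => b.sd G₀.F s) ∧
      ∀ n, SBd I ((c n).sd (G n).F s) := by
  cases s with
  | q v w =>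
    have a := fun n => (lh n).sw (hs.1.ok (G n).F)
    have a' := fun n => (lh n).sw (hs.2.ok (G n).F)
    exact ⟨.q k (k.qs (sw k.ok c hs.1) fun n => (a n).2) (k.qs (sw k.ok c hs.2) fun n => (a' n).2),
      fun n => (lh n).sbd_q (a n).1.1 (a' n).1.1⟩
  | cv f a d =>
    have q := qa_cv k h hs.1 hs.2.1 hs.2.2
    have q1 := q.res k (fun n => Abel74.rs_res (lh n).tame (Mp86.mc_adW (lh n).conn)
      ((lh n).sbd_cvS (hs.1.cb _) (hs.2.1.cd _) (hs.2.2.cd _))) fun n => (lh n).res_g (q.p n)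
    exact ⟨q1.res k (fun n => Abel74.rs_res (lh n).tame (Mp86.mc_adW (lh n).conn)
      (Abel74.sbd_res _ _ _)) fun n => (lh n).res_g (q1.p n), fun n => Abel74.sbd_res _ _ _⟩

theorem qa_aw {ξ : AW M} (hξ : AwIn I Ω ξ) :
    (fx l B G G₀).QA c (fun n => (c n).aw (G n).F ξ) fun b => b.aw G₀.F ξ :=
  have a := qa_sd k h lh hξ.1
  k.qla (ll k.ok c hξ.2) a.1 fun n => (vw_wd (p := fun s => SBd I s ∧ ∀ x, s x ∈ (c n).m.gS x)
    ⟨a.2 n, a.1.p n⟩ (lh n).la ξ.l (hξ.2.ok _)).2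

omit lh in
theorem lim_opL (bf : ∃ C, ∀ x, ‖b.m.Fg G₀.F b.W x‖ ≤ C) {s : ∀ n, M → (c n).m.A}
    {s' : ∀ b : Cfg M ι lam r, M → b.m.A} (q : (fx l B G G₀).QA c s s') (x : M) :
    Tendsto (fun n => u n x ∘L opL (s n x) ∘L trn (u n x)) l (𝓝 (opL (s' b x))) := by
  have := (q.lim b u (lb h k.ok k.adm bf)).cv.pt x (by rw [S_eq h k.ok k.adm]; exact id)
  exact ((opL.continuous.tendsto _).comp this).congr fun n => opL_cj ..

/-- **the words converge** -/
theorem xi_lim (bf : ∃ C, ∀ x, ‖b.m.Fg G₀.F b.W x‖ ≤ C) {ξ : Xi M lam r} (hξ : XiIn I Ω ξ) (x : M) :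
    ∃ Ξ, Tendsto (fun n => u n x ∘L (c n).xi (G n).F ξ x ∘L trn (u n x)) l (𝓝 Ξ) ∧
      Ξ * b.m.p x = b.xi G₀.F ξ x * b.m.p x := by
  cases ξ with
  | one =>
    exact ⟨b.m.p x, tendsto_const_nhds.congr' ((h.nr k.ok k.adm (x := x) id).curry.mono fun n hn =>
      hn.self_of_nhds.me.uu'.symm), (h.adm.ok.pidem x).trans (one_mul _).symm⟩
  | aw ξ => exact ⟨_, lim_opL k h bf (qa_aw k h lh hξ) x, rfl⟩
  | qj d s v w t =>
    exact ⟨_, lim_opL k h bf (k.qq (co k.ok c hξ.1) (fk k.ok c hξ.2.1.sm hξ.2.1.hcs).toFC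
      (sw k.ok c hξ.2.2.1) (sw k.ok c hξ.2.2.2.1) (ll k.ok c hξ.2.2.2.2) fun n =>
        (lh n).vq (hξ.1.ok _) (Sob92.Cb_of_hcs hξ.2.1.sm hξ.2.1.hcs) (hξ.2.2.1.ok _)
          (hξ.2.2.2.1.ok _) (hξ.2.2.2.2.ok _)) x, rfl⟩

end Crest.Agent.X212.Ksc68
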